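import Vale.Agent.P057TP.Ops
import Vale.Agent.P057GH.Pb
import Vale.Agent.P057PC.Chain

/-!
Morphisms of towers: composition and monotonicity.
-/

open Matrix Finset MvPolynomial
open Vale.Agent.P267.H775 Vale.Agent.P057G Vale.Agent.P057PC Vale.Agent.P057TP

namespace Vale.Agent.P057RG

noncomputable section

theorem hom_bind {R σ τ : Type} [CommRing R] {w : σ → ℕ} {w' : τ → ℕ} {p : MvPolynomial σ R}
    {n : ℕ} (hp : p.IsWeightedHomogeneous w n) {f : σ → MvPolynomial τ R}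
    (hf : ∀ b, w b ≤ n → (f b).IsWeightedHomogeneous w' (w b)) :
    (bind₁ f p).IsWeightedHomogeneous w' n := by
  rw [p.as_sum, map_sum]
  refine IsWeightedHomogeneous.sum _ _ _ fun d hd => ?_
  have h1 := hp (mem_support_iff.1 hd)
  rw [bind₁_monomial, ← h1]
  exact (IsWeightedHomogeneous.prod _ _ (fun i => d i • w i) fun i hi => (hf i
    (h1 ▸ Finsupp.le_weight_of_ne_zero' w (Finsupp.mem_support_iff.1 hi))).pow _).C_mul _

theorem ap_bind {ι κ ν : Type} (φ : ι → MvPolynomial κ ℤ) (ψ : κ → MvPolynomial ν ℤ) (y : ν → ℝ) :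
    ap (fun a => bind₁ ψ (φ a)) y = ap φ (ap ψ y) := funext fun _ => aeval_bind₁ _ _ _

theorem ap_X {ι : Type} (y : ι → ℝ) : ap X y = y := funext fun _ => aeval_X _ _

variable {T T' T'' : Tow} {j j' s s' : ℕ} {N : ℝ}

theorem mor_id (j : ℕ) (T : Tow) : Mor j T T X :=
  ⟨fun a _ => isWeightedHomogeneous_X _ _ a, fun y h => (ap_X y).symm ▸ h,
    fun _ y => by rw [ap_X]⟩

theorem mor_comp {φ : T.ι → MvPolynomial T'.ι ℤ} {ψ : T'.ι → MvPolynomial T''.ι ℤ}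
    (h : Mor j T' T φ) (h' : Mor j T'' T' ψ) : Mor j T'' T fun a => bind₁ ψ (φ a) :=
  ⟨fun a ha => hom_bind (h.hom a ha) fun b hb => h'.hom b (hb.trans_lt ha),
    fun y hy => (ap_bind φ ψ y).symm ▸ h.ball _ (h'.ball y hy),
    fun h1 y => by rw [ap_bind, h'.el h1, h.el h1]⟩

theorem up_refl (j : ℕ) (T : Tow) : Up j T T :=
  ⟨X, Equiv.refl _, mor_id j T, fun _ => rfl, fun _ => rfl, fun _ y => by rw [ap_X]; rfl,
    fun _ _ => rfl, fun _ => rfl⟩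

theorem up_trans (h' : Up j T'' T') (h : Up j T' T) : Up j T'' T := by
  obtain ⟨φ, e, h1, h2, h3, h4, h5, h6⟩ := h
  obtain ⟨φ', e', g1, g2, g3, g4, g5, g6⟩ := h'
  exact ⟨fun a => bind₁ φ' (φ a), e.trans e', mor_comp h1 g1, fun a => (g2 _).trans (h2 a),
    fun a => by simp only [h3, bind₁_X_right, g3]; rfl,
    fun a y => by rw [ap_bind, ← h4]; exact g4 _ y, fun a b => (g5 _ _).trans (h5 a b),
    fun a => (g6 _).trans (h6 a)⟩

/-- the bijection on a set of upper levels -/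
def upE (e : {a // j ≤ T.lv a} ≃ {a // j ≤ T'.lv a}) (he : ∀ a, T'.lv (e a) = T.lv a)
    (p : ℕ → Prop) (hp : ∀ n, p n → j ≤ n) : {a // p (T.lv a)} ≃ {a // p (T'.lv a)} where
  toFun a := ⟨e ⟨a.1, hp _ a.2⟩, (he _).symm ▸ a.2⟩
  invFun a := ⟨e.symm ⟨a.1, hp _ a.2⟩, by
    rw [← he, Equiv.apply_symm_apply]; exact a.2⟩
  left_inv a := Subtype.ext (congrArg Subtype.val (e.symm_apply_apply ⟨a.1, hp _ a.2⟩) :)
  right_inv a := Subtype.ext (congrArg Subtype.val (e.apply_symm_apply ⟨a.1, hp _ a.2⟩) :)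

theorem sum_up (e : {a // j ≤ T.lv a} ≃ {a // j ≤ T'.lv a}) {f : T.ι → ℝ} {f' : T'.ι → ℝ}
    (h : ∀ a, f' (e a) = f a) (h0 : ∀ a, ¬j ≤ T.lv a → f a = 0)
    (h0' : ∀ a, ¬j ≤ T'.lv a → f' a = 0) : ∑ a, f' a = ∑ a, f a := by
  rw [← Fintype.sum_subtype_add_sum_subtype (fun a => j ≤ T.lv a) f,
    ← Fintype.sum_subtype_add_sum_subtype (fun a => j ≤ T'.lv a) f',
    sum_eq_zero fun (a : {a // ¬j ≤ T.lv a}) _ => h0 a.1 a.2,
    sum_eq_zero fun (a : {a // ¬j ≤ T'.lv a}) _ => h0' a.1 a.2, ← e.sum_comp]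
  simp only [h]

theorem up_dm (h : Up j T' T) {i : ℕ} (hi : j ≤ i) : T'.dm i = T.dm i := by
  obtain ⟨φ, e, -, h2, -⟩ := h
  simp only [Tow.dm, ← Fintype.card_subtype]
  rw [Fintype.card_congr (upE e h2 (· = i) fun n hn => hn ▸ hi)]

theorem up_yy (h : Up j T' T) (N : ℝ) {i : ℕ} (hi : j ≤ i) : T'.yy N i = T.yy N i := by
  obtain ⟨φ, e, -, h2, -, -, h5, -⟩ := h
  simp only [Tow.yy]
  rw [← det_submatrix_equiv_self (upE e h2 (· = i) fun n hn => hn ▸ hi)]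
  congr 4
  ext a b
  exact h5 ⟨a.1, _⟩ ⟨b.1, _⟩

theorem up_mono (hT : T.Ok s N) (hT' : T'.Ok s' N) (h : Up j T' T) (hj : j ≤ j') :
    Up j' T' T := by
  obtain ⟨φ, e, h1, h2, h3, h4, h5, h6⟩ := h
  have e1 : ∀ y (a : {a // j ≤ T.lv a}), ap φ y a = y (e a) := fun y a => by
    rw [ap, h3, aeval_X]
  refine ⟨φ, upE e h2 (j' ≤ ·) fun n hn => hj.trans hn, ⟨fun a _ => ?_, fun y hy i hi => ?_,
    fun _ y => ?_⟩, fun a => h2 ⟨a.1, _⟩, fun a => h3 ⟨a.1, _⟩, fun a => h4 ⟨a.1, _⟩,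
    fun a b => h5 ⟨a.1, _⟩ ⟨b.1, _⟩, fun a => h6 ⟨a.1, _⟩⟩
  · by_cases ha : T.lv a < j
    · exact h1.hom a ha
    · have := isWeightedHomogeneous_X ℤ T'.lv (e ⟨a, not_lt.1 ha⟩).1
      rwa [h2, ← h3] at this
  · by_cases h7 : i < j
    · exact h1.ball y (fun k hk => hy k (hk.trans_le hj)) i h7
    refine le_of_eq_of_le (Eq.symm ?_) (hy i hi)
    have e2 : ∀ a : {a // j ≤ T.lv a}, (if T'.lv (e a) = i then T'.ps y (e a) else 0) =
        if T.lv a = i then T.ps (ap φ y) a else 0 := fun a => by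
      simp only [Tow.ps, h2, h4, e1]
    simp only [Tow.ln, qq, dotProduct, mulVec]
    refine sum_up e (fun a => ?_) (fun a ha => by rw [if_neg (by omega), zero_mul])
      fun a ha => by rw [if_neg (by omega), zero_mul]
    rw [e2]
    congr 1
    exact sum_up e (fun b => by rw [e2, h5]) (fun a ha => by rw [if_neg (by omega), mul_zero])
      fun a ha => by rw [if_neg (by omega), mul_zero]
  · by_cases h7 : 1 < j
    · exact h1.el h7 y
    · exact sum_up e (fun a => by simp only [toR, h6, e1])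
        (fun a ha => absurd (hT.pos a) (by omega)) fun a ha => absurd (hT'.pos a) (by omega)

theorem ok_tw (hT : T.Ok s N) : T.tw.Ok := ⟨hT.pos, hT.low, hT.pd, fun _ _ h => h⟩

theorem lfd_mono (hT : T.Ok s N) {d d' : ℕ} {n n' A A' : ℝ} (h : T.LFd d n A) (hd : d' ≤ d)
    (hn : n' ≤ n) (hA : A' ≤ A) : T.LFd d' n' A' :=
  Tw.LF.mono h (ok_tw hT) hd (Nat.floor_mono hn) (Real.exp_le_exp.2 hA)
    (Real.exp_le_exp.2 (neg_le_neg hA))

theorem lfd_zero (hT : T.Ok s N) (n A : ℝ) : T.LFd 0 n A :=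
  (Tw.LF.zero (ok_tw hT) _ _).mono (ok_tw hT) le_rfl le_rfl le_rfl (Real.exp_pos _).le

theorem dm_nonneg (T : Tow) (e : ℕ) : 0 ≤ T.dm e := Nat.cast_nonneg _

theorem cx_mono {P P' : ℕ → ℝ} (h : T.Cx N P) (hP : ∀ e, P e ≤ P' e) : T.Cx N P' :=
  fun e => ⟨(h e).1.trans (hP e), (h e).2.trans (hP e)⟩

theorem grow_mono {Q Q' : ℕ → ℝ} (h : T.Grow N T' Q) (hQ : ∀ e, Q e ≤ Q' e) : T.Grow N T' Q' :=
  fun e => ⟨(h e).1.trans (by linarith [hQ (e + 1)]), (h e).2.trans (by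
    nlinarith [hQ (e + 1), dm_nonneg T e])⟩

variable {C W S : Type} [Fintype W] [DecidableEq W] [Fintype S] {cl : W → C} {m : ℕ}

theorem sub_mono {Z' : Sys T' W S} {Z : Sys T W S} {Ψ : Fam ℤ T.ι T'.ι W S} {R r R' r' : ℝ}
    (h : Sub cl m Z' Z Ψ R r) (hR : R' ≤ R) (hr : r ≤ r') : Sub cl m Z' Z Ψ R' r' :=
  ⟨h.ok, h.mor, h.cel, fun z hz => (h.blk z (hz.trans hR)).trans (by linarith)⟩

theorem st_mono (hT : T.Ok s N) {Z : Sys T W S} (hZ : Z.Ok) {H : (Lb T cl S m → ℤ) → ℝ}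
    {B κ σ κ' σ' : ℝ} (h : Z.St cl m H B κ σ) (hκ : κ' ≤ κ) (hσ : σ' ≤ σ) :
    Z.St cl m H B κ' σ' := by
  have h1 : ∀ k : ℝ, Summable fun z => Z.w cl m z * (H z - k) := fun k =>
    Summable.of_norm_bounded ((P057GH.summable_w hT hZ).mul_right (B + |k|)) fun z => by
      rw [norm_mul, Real.norm_of_nonneg (P057GH.w_nonneg Z z), Real.norm_eq_abs]
      exact mul_le_mul_of_nonneg_left ((abs_sub _ _).trans (by linarith [h.1 z]))
        (P057GH.w_nonneg Z z)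
  exact ⟨h.1, hσ.trans (h.2.trans ((h1 κ).tsum_le_tsum (fun z =>
    mul_le_mul_of_nonneg_left (by linarith) (P057GH.w_nonneg Z z)) (h1 κ')))⟩

end

end Vale.Agent.P057RG
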