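import Vale.Agent.P057TP.Ops

/-!
Raised ladders.
-/

open Vale.Agent.P057TP

namespace Vale.Agent.P057RG

noncomputable section

variable {s : ℕ} {N c : ℝ} {P : ℕ → ℝ}

theorem lad_le (h : Lad s N c P) {e e' : ℕ} (he : e ≤ e') : P e' ≤ P e :=
  antitone_nat_of_succ_le h.anti he

theorem lad_mono (h : Lad s N c P) {c' : ℝ} (hc : c' ≤ c) : Lad s N c' P :=
  ⟨h.anti, fun e => hc.trans (h.big e), h.lg, h.one, h.lN⟩

/-- a ladder raised to decreasing powers is a ladder -/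
theorem lad_pow (h : Lad s N c P) (hc : 1 ≤ c) {a : ℕ → ℕ} (ha : ∀ e, a (e + 1) ≤ a e)
    (h2 : ∀ e, 2 ≤ a e) (h0 : (a 0 : ℝ) ≤ c) : Lad s N c fun e => P e ^ a e := by
  have h1 : ∀ e, 1 ≤ P e := fun e => hc.trans (h.big e)
  have h3 : ∀ e, P e ≤ P e ^ a e := fun e => le_self_pow₀ (h1 e) (by have := h2 e; omega)
  refine ⟨fun e => (pow_le_pow_left₀ (by linarith [h1 (e + 1)]) (h.anti e) _).trans
    (pow_le_pow_right₀ (h1 e) (ha e)), fun e => (h.big e).trans (h3 e), ?_, h.one,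
    h.lN.trans (h3 1)⟩
  rw [Real.log_pow]
  calc (a 0 : ℝ) * Real.log (P 0) ≤ P (s + 1) * P (s + 1) :=
        mul_le_mul (h0.trans (h.big _)) h.lg (Real.log_nonneg (h1 0)) (by linarith [h1 (s + 1)])
    _ = P (s + 1) ^ 2 := by ring
    _ ≤ _ := pow_le_pow_right₀ (h1 _) (h2 _)

/-- two raised ladders with room for polynomially many moves of size `P₂ ^ k` -/
structure Room (s : ℕ) (N : ℝ) (k c : ℕ) (P P₁ P₂ : ℕ → ℝ) : Prop where
  l1 : Lad s N k P₁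
  l2 : Lad s N k P₂
  big : ∀ e, 3 ≤ P e
  cub : ∀ e, P e ^ 3 ≤ P₁ e
  two : ∀ e, P₂ e = P₁ e ^ (2 * k + 2)
  stp : ∀ e, e ≤ s → P e ^ 9 * (P₂ (e + 1) ^ k) ^ 2 ≤ P₁ e
  fin : ∀ e, P e ^ 9 * (P₂ e ^ k) ^ 2 ≤ P e ^ c
  rad : Real.exp (P (s + 1)) + P 0 ^ 2 * P₂ 0 ^ k ≤ Real.exp (P₂ (s + 1))

theorem exists_room (s k : ℕ) : ∃ c : ℕ, 1 ≤ c ∧ ∀ (N : ℝ) (P : ℕ → ℝ), Lad s N c P →
    ∃ P₁ P₂, Room s N k c P P₁ P₂ := by
  set g := (2 * k + 2) * k * 2 + 9 with hg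
  set a : ℕ → ℕ := fun e => g ^ (s + 1 - e + 1) with ha
  have g1 : 1 ≤ g := by omega
  have a1 : ∀ e, a (e + 1) ≤ a e := fun e => Nat.pow_le_pow_right g1 (by omega)
  have a2 : ∀ e, g ≤ a e := fun e => Nat.le_self_pow (by omega) g
  have a3 : ∀ e, a e ≤ a 0 := fun e => Nat.pow_le_pow_right g1 (by omega)
  have a4 : ∀ e, e ≤ s → a e = g * a (e + 1) := fun e he => by
    simp only [ha]
    rw [show s + 1 - e + 1 = s + 1 - (e + 1) + 1 + 1 by omega, pow_succ']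
  have a5 : ∀ n, 1 ≤ n → 9 + n * (2 * k + 2) * k * 2 ≤ g * n := fun n hn => by
    rw [hg]; nlinarith
  refine ⟨g * a 0 * (2 * k + 2) + k, le_add_right (Nat.mul_pos (Nat.mul_pos g1 (g1.trans (a2 0)))
    (by omega)), fun N P h => ?_⟩
  set c := g * a 0 * (2 * k + 2) + k with hc
  have c1 : g * a 0 ≤ c := by rw [hc]; nlinarith
  have c2 : a 0 * (2 * k + 2) ≤ c := by rw [hc]; nlinarith [Nat.zero_le (a 0 * (2 * k + 2))]
  have c3 : a 0 ≤ c := le_trans (by nlinarith) c2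
  have c4 : 9 ≤ c := le_trans (by nlinarith [a2 0]) c3
  have p9 : ∀ e, (9 : ℝ) ≤ P e := fun e => le_trans (by exact_mod_cast c4) (h.big e)
  have p1 : ∀ e, (1 : ℝ) ≤ P e := fun e => by linarith [p9 e]
  have ck : ((k : ℕ) : ℝ) ≤ c := by exact_mod_cast (show k ≤ c by omega)
  have c0 : (1 : ℝ) ≤ c := by exact_mod_cast (show 1 ≤ c by omega)
  refine ⟨fun e => P e ^ a e, fun e => P e ^ (a e * (2 * k + 2)),
    lad_mono (lad_pow h c0 a1 (fun e => by have := a2 e; omega) (by exact_mod_cast c3)) ck,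
    lad_mono (lad_pow h c0 (fun e => Nat.mul_le_mul_right _ (a1 e))
      (fun e => by nlinarith [a2 e]) (by exact_mod_cast c2)) ck, fun e => by linarith [p9 e],
    fun e => pow_le_pow_right₀ (p1 e) (by have := a2 e; omega), fun e => pow_mul _ _ _,
    fun e he => ?_, fun e => ?_, ?_⟩
  · calc _ ≤ P e ^ 9 * ((P e ^ (a (e + 1) * (2 * k + 2))) ^ k) ^ 2 := by
          have := p1 (e + 1); have := p1 e; have := h.anti e
          gcongr
      _ = P e ^ (9 + a (e + 1) * (2 * k + 2) * k * 2) := by rw [← pow_mul, ← pow_mul, ← pow_add]; ring_nf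
      _ ≤ _ := pow_le_pow_right₀ (p1 e) (a4 e he ▸ a5 _ (g1.trans (a2 _)))
  · rw [← pow_mul, ← pow_mul, ← pow_add, ← mul_assoc]
    exact pow_le_pow_right₀ (p1 e) ((a5 _ (g1.trans (a2 _))).trans
      ((Nat.mul_le_mul_left _ (a3 e)).trans c1))
  · set y := P (s + 1) with hy
    have h1 : P 0 ≤ Real.exp y := (Real.log_le_iff_le_exp (by linarith [p1 0])).1 h.lg
    have h2 : P 0 ^ 2 * (P 0 ^ (a 0 * (2 * k + 2))) ^ k ≤ Real.exp (y ^ 2) := by
      rw [← pow_mul, ← pow_add]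
      calc _ ≤ P 0 ^ c := pow_le_pow_right₀ (p1 0)
            (le_trans (by nlinarith) ((a5 _ (g1.trans (a2 0))).trans c1))
        _ ≤ Real.exp y ^ c := pow_le_pow_left₀ (by linarith [p1 0]) h1 _
        _ = Real.exp (c * y) := (Real.exp_nat_mul _ _).symm
        _ ≤ _ := Real.exp_le_exp.2 (by nlinarith [h.big (s + 1), p1 (s + 1)])
    have h3 : Real.exp y ≤ Real.exp (y ^ 2) := Real.exp_le_exp.2 (by nlinarith [p1 (s + 1)])
    have h4 : y ^ 3 ≤ y ^ (a (s + 1) * (2 * k + 2)) :=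
      pow_le_pow_right₀ (p1 _) (by nlinarith [a2 (s + 1)])
    have h5 : y ^ 2 + 1 ≤ y ^ 3 := by nlinarith [p9 (s + 1), sq_nonneg y]
    have h6 := Real.exp_le_exp.2 (h5.trans h4)
    rw [Real.exp_add] at h6
    nlinarith [Real.add_one_le_exp (1 : ℝ), Real.exp_pos (y ^ 2)]

end

end Vale.Agent.P057RG
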