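import Vale.Agent.P057RG.Reg
import Vale.Agent.P057TP.Alg3

/-!
Identity and composition of maps of systems; regularisation from tests and events.
-/

open MvPolynomial
open Vale.Agent.P057TP

namespace Vale.Agent.P057RG

variable {C W S : Type} [Fintype W] [DecidableEq W] [Fintype S] {cl : W → C} {m : ℕ}
  {T T' T'' : Tow}

theorem sub_refl (Z : Sys T W S) (R : ℝ) : Sub cl m Z Z (Fam.ren W S id) R 0 :=
  ⟨ok_ren fun _ => rfl, (funext (top_ren id) : (Fam.ren W S (id : T.ι → T.ι)).top = X) ▸ mor_id m T,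
    fun f z c _ s => by rw [sub_id], fun z _ => by rw [sub_id, add_zero]⟩

theorem sub_comp {Z : Sys T W S} {Z' : Sys T' W S} {Z'' : Sys T'' W S} {Ψ : Fam ℤ T.ι T'.ι W S}
    {Ψ' : Fam ℤ T'.ι T''.ι W S} {R r r' : ℝ} (h : Sub cl m Z' Z Ψ (R + r') r)
    (h' : Sub cl m Z'' Z' Ψ' R r') : Sub cl m Z'' Z (Ψ.cmp Ψ') R (r + r') := by
  refine ⟨h.ok.cmp h'.ok, ?_, fun f z c hc s => by rw [h.ok.sub_cmp h'.ok, h'.cel f z c hc,
    h.cel f _ c hc], fun z hz => ?_⟩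
  · have e : (Ψ.cmp Ψ').top = fun a => bind₁ Ψ'.top (Ψ.top a) := funext fun a => by
      rw [Fam.cmp_eq, Fam.cast_int, Fam.top_cmr]
    exact e ▸ mor_comp h.mor h'.mor
  · rw [h.ok.sub_cmp h'.ok]
    linarith [h'.blk z hz, h.blk _ ((h'.blk z hz).trans (add_le_add_left hz r'))]

theorem reg {s : ℕ} (h1 : TEST s) (h2 : EVENT s) : REG s :=
  reg_of (fun _ _ _ _ _ _ _ _ _ _ _ Z R _ _ => ⟨_, sub_refl Z R, sub_id⟩)
    (fun _ _ _ _ _ _ _ _ _ _ _ _ _ _ _ _ _ _ _ _ _ _ _ _ h h' =>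
      ⟨_, sub_comp h h', h.ok.sub_cmp h'.ok⟩) h1 h2

end Vale.Agent.P057RG
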