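import Vale.Agent.P057RG.Up
import Vale.Agent.P057RG.Num

/-!
Regularisation in place from tests and events.
-/

open Vale.Agent.P057TP

namespace Vale.Agent.P057RG

noncomputable section

/-- the identity map of a system -/
def SubId : Prop :=
  ∀ (s : ℕ) (N : ℝ) (T : Tow) (C W S : Type) [Fintype W] [DecidableEq W] [Fintype S] (cl : W → C)
    (m : ℕ) (Z : Sys T W S) (R : ℝ), T.Ok s N → Z.Ok →
    ∃ Ψ, Sub cl m Z Z Ψ R 0 ∧ ∀ z, Ψ.sub cl m z = z

/-- composition of maps of systems -/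
def SubComp : Prop :=
  ∀ (s : ℕ) (N : ℝ) (T T' T'' : Tow) (C W S : Type) [Fintype W] [DecidableEq W] [Fintype S]
    (cl : W → C) (m : ℕ) (Z : Sys T W S) (Z' : Sys T' W S) (Z'' : Sys T'' W S)
    (Ψ : Fam ℤ T.ι T'.ι W S) (Ψ' : Fam ℤ T'.ι T''.ι W S) (R r r' : ℝ), T.Ok s N → T'.Ok s N →
    T''.Ok s N → Sub cl m Z' Z Ψ (R + r') r → Sub cl m Z'' Z' Ψ' R r' →
    ∃ Ψ'', Sub cl m Z'' Z Ψ'' R (r + r') ∧ ∀ z, Ψ''.sub cl m z = Ψ.sub cl m (Ψ'.sub cl m z)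

/-- the statement at one level with a given exponent -/
def Rg (s j c : ℕ) : Prop :=
  ∀ (N : ℝ) (P : ℕ → ℝ) (T : Tow) (C W S : Type) [Fintype W] [DecidableEq W] [Fintype S]
    (cl : W → C) (m : ℕ) (Z : Sys T W S) (H : (Lb T cl S m → ℤ) → ℝ) (B κ σ : ℝ),
    Lad s N c P → T.Ok s N → T.Cx N P → Z.Ok → j < m → j ≤ s →
    (Fintype.card W + Fintype.card S : ℝ) ≤ P (j + 1) → B ≤ Real.exp (P (j + 1)) →
    Real.exp (-P (j + 1)) ≤ κ → Real.exp (-P 0) ≤ σ → Z.St cl m H B κ σ →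
    ∃ (T' : Tow) (Z' : Sys T' W S) (Ψ : Fam ℤ T.ι T'.ι W S), T'.Ok s N ∧ Z'.Ok ∧ Up (j + 1) T' T ∧
      Sub cl m Z' Z Ψ (Real.exp (P (s + 1))) (P 0 ^ c) ∧
      Z'.St cl m (fun z => H (Ψ.sub cl m z)) B ((1 - 1 / P 0) * κ) (σ * Real.exp (-P 1 ^ c)) ∧
      T.Grow N T' (fun e => P e ^ c) ∧ T'.dm j ≤ T.dm j ∧
      T'.yy N j ≤ T.yy N j + (T.dm j - T'.dm j) * P (j + 1) ^ c ∧ T'.LFd j (P j) (P (j + 1)) ∧
      T'.LFd (j - 1) (P j) (P j)

theorem Rg.mono {s j c c' : ℕ} (h : Rg s j c) (hc : c ≤ c') (h1 : 1 ≤ c') : Rg s j c' := by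
  intro N P T C W S _ _ _ cl m Z H B κ σ hL hT hC hZ hm hs a1 a2 a3 a4 a5
  obtain ⟨T', Z', Ψ, b1, b2, b3, b4, b5, b6, b7, b8, b9⟩ := h N P T C W S cl m Z H B κ σ
    (lad_mono hL (by exact_mod_cast hc)) hT hC hZ hm hs a1 a2 a3 a4 a5
  have p : ∀ e, P e ^ c ≤ P e ^ c' := fun e =>
    pow_le_pow_right₀ (le_trans (by exact_mod_cast h1) (hL.big e)) hc
  refine ⟨T', Z', Ψ, b1, b2, b3, sub_mono b4 le_rfl (p 0), st_mono b1 b2 b5 le_rfl ?_,
    grow_mono b6 p, b7, b8.trans (by nlinarith [p (j + 1)]), b9⟩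
  exact mul_le_mul_of_nonneg_left (Real.exp_le_exp.2 (neg_le_neg (p 1)))
    ((Real.exp_pos _).le.trans a4)

theorem rg_zero (hi : SubId) (s : ℕ) : Rg s 0 1 := by
  intro N P T C W S _ _ _ cl m Z H B κ σ hL hT hC hZ hm hs a1 a2 a3 a4 a5
  obtain ⟨Ψ, h1, h2⟩ := hi s N T C W S cl m Z (Real.exp (P (s + 1))) hT hZ
  have p : ∀ e, 1 ≤ P e := fun e => le_trans (by simp) (hL.big e)
  have k0 := (Real.exp_pos _).le.trans a3
  have s0 := (Real.exp_pos _).le.trans a4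
  refine ⟨T, Z, Ψ, hT, hZ, up_refl _ _, sub_mono h1 le_rfl (by linarith [p 0, pow_one (P 0)]), ?_,
    fun e => ⟨by linarith [p (e + 1), pow_one (P (e + 1))], ?_⟩, le_rfl, by simp,
    lfd_zero hT _ _, lfd_zero hT _ _⟩
  · simp only [h2]
    refine st_mono hT hZ a5 ?_ (mul_le_of_le_one_right s0 (Real.exp_le_one_iff.2 ?_))
    · have : 0 ≤ 1 / P 0 := by have := p 0; positivity
      nlinarith
    · linarith [p 1, pow_one (P 1)]
  · have := p (e + 1); have := dm_nonneg T e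
    exact le_add_of_nonneg_right (by positivity)

variable {C W S : Type} [Fintype W] [DecidableEq W] [Fintype S]

/-- the state after `t` moves of size `Q` at the levels up to `J` -/
structure Iv (s : ℕ) (N : ℝ) (J : ℕ) (cl : W → C) (m : ℕ) {T : Tow} (Z : Sys T W S)
    (H : (Lb T cl S m → ℤ) → ℝ) (B κ σ x R : ℝ) (Q U : ℕ → ℝ) (t : ℕ) {T' : Tow}
    (Z' : Sys T' W S) (Ψ : Fam ℤ T.ι T'.ι W S) : Prop where
  ok : T'.Ok s N
  zok : Z'.Ok
  up : Up (J + 1) T' T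
  sub : Sub cl m Z' Z Ψ (R - t * Q 0) (t * Q 0)
  st : Z'.St cl m (fun z => H (Ψ.sub cl m z)) B ((1 - t * x) * κ) (σ * Real.exp (-(t * Q 1)))
  low : ∀ e, e < J → T'.dm e ≤ T.dm e + t * Q (e + 1) ∧
    T'.yy N e ≤ T.yy N e + t * ((T.dm e + 1) * U (e + 1))
  dm : T'.dm J ≤ T.dm J
  yy : T'.yy N J ≤ T.yy N J + (T.dm J - T'.dm J) * Q (J + 1)

variable {s : ℕ} {N : ℝ} {J : ℕ} {cl : W → C} {m : ℕ} {T T' T'' : Tow} {Z : Sys T W S}
  {Z' : Sys T' W S} {Z'' : Sys T'' W S} {H : (Lb T cl S m → ℤ) → ℝ} {B κ σ x R M : ℝ}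
  {Q U : ℕ → ℝ} {t : ℕ} {Ψ : Fam ℤ T.ι T'.ι W S} {Ψ' : Fam ℤ T'.ι T''.ι W S}

theorem Iv.step (hc : SubComp) (hT : T.Ok s N) (h : Iv s N J cl m Z H B κ σ x R Q U t Z' Ψ)
    (hκ : 0 ≤ κ) (hx : 0 ≤ x) (hQ : ∀ e, 0 ≤ Q e) (ht : (t : ℝ) ≤ M)
    (hU : ∀ e, (1 + M * Q e) * Q e ≤ U e) (ok : T''.Ok s N) (zok : Z''.Ok)
    (up : Up (J + 1) T'' T') (sub : Sub cl m Z'' Z' Ψ' R (Q 0))
    (st : Z''.St cl m (fun z => H (Ψ.sub cl m (Ψ'.sub cl m z))) B ((1 - x) * ((1 - t * x) * κ))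
      (σ * Real.exp (-(t * Q 1)) * Real.exp (-Q 1)))
    (low : ∀ e, e < J → T''.dm e ≤ T'.dm e + Q (e + 1) ∧
      T''.yy N e ≤ T'.yy N e + (T'.dm e + 1) * Q (e + 1)) (dm : T''.dm J ≤ T'.dm J)
    (yy : T''.yy N J ≤ T'.yy N J + (T'.dm J - T''.dm J) * Q (J + 1)) :
    ∃ Ψ'', Iv s N J cl m Z H B κ σ x R Q U (t + 1) Z'' Ψ'' := by
  have t0 : (0 : ℝ) ≤ t := Nat.cast_nonneg t
  obtain ⟨Ψ'', h1, h2⟩ := hc s N T T' T'' C W S cl m Z Z' Z'' Ψ Ψ' (R - (t + 1) * Q 0) _ (Q 0) hT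
    h.ok ok (sub_mono h.sub (by linarith) le_rfl) (sub_mono sub (by nlinarith [hQ 0]) le_rfl)
  refine ⟨Ψ'', ok, zok, up_trans up h.up, sub_mono h1 (by simp) (by push_cast; linarith), ?_,
    fun e he => ⟨?_, ?_⟩, dm.trans h.dm, by linarith [h.yy]⟩
  · simp only [h2]
    refine st_mono ok zok st ?_ (le_of_eq ?_)
    · push_cast; nlinarith [mul_nonneg (mul_nonneg t0 (mul_nonneg hx hx)) hκ]
    · rw [mul_assoc, ← Real.exp_add]; push_cast; congr 2; ring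
  · push_cast; linarith [(low e he).1, (h.low e he).1]
  · have h3 : (T'.dm e + 1) * Q (e + 1) ≤ (T.dm e + 1) * U (e + 1) := by
      have h4 := hQ (e + 1)
      have h5 := dm_nonneg T e
      have h6 : t * Q (e + 1) ≤ M * Q (e + 1) := by gcongr
      calc _ ≤ (T.dm e + 1) * (1 + M * Q (e + 1)) * Q (e + 1) := by
            refine mul_le_mul_of_nonneg_right ?_ h4
            nlinarith [(h.low e he).1, mul_nonneg h5 ((mul_nonneg t0 h4).trans h6)]
        _ ≤ _ := by rw [mul_assoc]; exact mul_le_mul_of_nonneg_left (hU _) (by linarith)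
    push_cast; linarith [(low e he).2, (h.low e he).2]

theorem poly1 {y w M : ℝ} (hy : 3 ≤ y) (hw : 1 ≤ w) (h0 : 0 ≤ M) (hM : M ≤ y ^ 2) :
    y + M * (2 * w) ≤ y ^ 9 * w ^ 2 ∧
      y + M * ((y + 1) * ((1 + M * (2 * w)) * (2 * w))) ≤ y ^ 9 * w ^ 2 := by
  have y1 : 1 ≤ y := by linarith
  have h1 : 9 ≤ y ^ 2 := by nlinarith
  have h2 : 1 + M * (2 * w) ≤ 3 * (y ^ 2 * w) := by nlinarith
  have h3 : y + 1 ≤ y ^ 2 := by nlinarith
  have h4 : M * ((y + 1) * ((1 + M * (2 * w)) * (2 * w))) ≤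
      y ^ 2 * (y ^ 2 * (3 * (y ^ 2 * w) * (2 * w))) := by gcongr
  have h5 : y ≤ y ^ 6 * w ^ 2 := (le_self_pow₀ y1 (by norm_num)).trans
    (le_mul_of_one_le_right (by positivity) (one_le_pow₀ hw))
  have h6 : 7 * (y ^ 6 * w ^ 2) ≤ y ^ 9 * w ^ 2 := by
    have : 7 ≤ y ^ 3 := by nlinarith
    nlinarith [mul_nonneg (pow_nonneg (by linarith : 0 ≤ y) 6) (sq_nonneg w)]
  have h8 : 1 ≤ 1 + M * (2 * w) := le_add_of_nonneg_right (by positivity)
  have h7 : M * (2 * w) ≤ M * ((y + 1) * ((1 + M * (2 * w)) * (2 * w))) :=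
    mul_le_mul_of_nonneg_left ((le_mul_of_one_le_left (by positivity) h8).trans
      (le_mul_of_one_le_left (by positivity) (by linarith))) h0
  constructor <;> nlinarith

variable {k c : ℕ} {P P₁ P₂ : ℕ → ℝ}

theorem Room.le1 (r : Room s N k c P P₁ P₂) (e : ℕ) : P e + 1 ≤ P₁ e := by
  have := r.big e
  nlinarith [r.cub e, mul_le_mul this (mul_le_mul this this (by norm_num) (by linarith))
    (by norm_num) (by linarith)]

theorem Room.le2 (r : Room s N k c P P₁ P₂) (e : ℕ) : P₁ e ≤ P₂ e :=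
  r.two e ▸ le_self_pow₀ (by linarith [r.le1 e, r.big e]) (by omega)

theorem Room.w1 (r : Room s N k c P P₁ P₂) (e : ℕ) : 1 ≤ P₂ e ^ k :=
  one_le_pow₀ (by linarith [r.le1 e, r.le2 e, r.big e])

/-- the state of the loop -/
abbrev Lp (s : ℕ) (N : ℝ) (J : ℕ) (cl : W → C) (m : ℕ) {T : Tow} (Z : Sys T W S)
    (H : (Lb T cl S m → ℤ) → ℝ) (B κ σ : ℝ) (k : ℕ) (P P₂ : ℕ → ℝ) (t : ℕ) {T' : Tow}
    (Z' : Sys T' W S) (Ψ : Fam ℤ T.ι T'.ι W S) : Prop :=
  Iv s N J cl m Z H B κ σ (1 / P₂ 0) (Real.exp (P₂ (s + 1))) (fun e => 2 * P₂ e ^ k)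
    (fun e => (1 + (2 * P J + 2) * (2 * P₂ e ^ k)) * (2 * P₂ e ^ k)) t Z' Ψ

variable (r : Room s N k c P P₁ P₂) (hL : Lad s N 9 P) (hC : T.Cx N P) (hJ : J ≤ s)
  (h : Lp s N J cl m Z H B κ σ k P P₂ t Z' Ψ) (ht : (t : ℝ) ≤ 2 * P J + 2)

include hL in
theorem m_le {e : ℕ} (he : e ≤ J) : 2 * (2 * P J + 2) ≤ P e ^ 2 := by
  nlinarith [lad_le hL he, hL.big J]

include r hL hC hJ h ht in
theorem Lp.cx : T'.Cx N P₁ := by
  intro e
  have t0 : (0 : ℝ) ≤ t := Nat.cast_nonneg t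
  have w1 := r.w1 (e + 1)
  rcases le_or_gt e J with he | he
  · have m1 := m_le hL he
    obtain ⟨h1, h2⟩ := poly1 (r.big e) w1 (t0.trans ht) (by linarith)
    have h3 := r.stp e (he.trans hJ)
    rcases he.lt_or_eq with he | rfl
    · refine ⟨(h.low e he).1.trans (le_trans ?_ (h1.trans h3)),
        (h.low e he).2.trans (le_trans ?_ (h2.trans h3))⟩
      · have := (hC e).1
        gcongr
      · have := (hC e).1; have := (hC e).2; have := dm_nonneg T e; have := t0.trans ht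
        gcongr
    · refine ⟨by linarith [h.dm, (hC e).1, r.le1 e], h.yy.trans (le_trans ?_ (h1.trans h3))⟩
      have := (hC e).2
      have : T.dm e - T'.dm e ≤ 2 * P e + 2 := by linarith [(hC e).1, dm_nonneg T' e, r.big e]
      gcongr
  · rw [up_dm h.up he, up_yy h.up N he]
    exact ⟨by linarith [(hC e).1, r.le1 e], by linarith [(hC e).2, r.le1 e]⟩

include r hL ht in
theorem kap : 1 - 1 / P 0 ≤ 1 - t * (1 / P₂ 0) := by
  have h1 := m_le hL (Nat.zero_le J)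
  have h2 := r.big 0
  have h3 := (r.cub 0).trans (r.le2 0)
  rw [sub_le_sub_iff_left, mul_one_div, div_le_div_iff₀ (by nlinarith) (by linarith)]
  nlinarith [hL.big J]

include r hL ht in
theorem kap2 (hκ : Real.exp (-P (J + 1)) ≤ κ) : Real.exp (-P₂ J) ≤ (1 - t * (1 / P₂ 0)) * κ := by
  have h1 := kap r hL ht
  have h2 : 1 / P 0 ≤ 1 / 3 := one_div_le_one_div_of_le (by norm_num) (r.big 0)
  have h3 : Real.exp (-P₂ J) ≤ Real.exp (-1) * Real.exp (-P (J + 1)) := by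
    rw [← Real.exp_add]
    exact Real.exp_le_exp.2 (by linarith [r.le1 J, r.le2 J, hL.anti J])
  have h4 : Real.exp (-1) ≤ 2⁻¹ := Real.exp_neg 1 ▸
    inv_anti₀ two_pos (by linarith [Real.add_one_le_exp (1 : ℝ)])
  exact h3.trans (mul_le_mul (by linarith) hκ (Real.exp_pos _).le (by linarith))

include r hL ht in
theorem sig (hσ : Real.exp (-P 0) ≤ σ) :
    Real.exp (-P₂ 0) ≤ σ * Real.exp (-(t * (2 * P₂ 1 ^ k))) := by
  have w1 := r.w1 1
  have h1 := (poly1 (r.big 0) w1 (Nat.cast_nonneg t)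
    (by linarith [m_le hL (Nat.zero_le J), hL.big J])).1
  refine le_trans ?_ (mul_le_mul_of_nonneg_right hσ (Real.exp_pos _).le)
  rw [← Real.exp_add]
  exact Real.exp_le_exp.2 (by linarith [r.stp 0 (Nat.zero_le s), r.le2 0])

include r hL h ht in
theorem Lp.fin (h1 : 1 ≤ J) (hκ : 0 ≤ κ) (hσ : 0 ≤ σ) :
    Sub cl m Z' Z Ψ (Real.exp (P (s + 1))) (P 0 ^ c) ∧
      Z'.St cl m (fun z => H (Ψ.sub cl m z)) B ((1 - 1 / P 0) * κ) (σ * Real.exp (-P 1 ^ c)) ∧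
      T.Grow N T' (fun e => P e ^ c) ∧ T'.dm J ≤ T.dm J ∧
      T'.yy N J ≤ T.yy N J + (T.dm J - T'.dm J) * P (J + 1) ^ c := by
  have t0 : (0 : ℝ) ≤ t := Nat.cast_nonneg t
  have a1 : ∀ e, e ≤ J → t * (2 * P₂ e ^ k) ≤ P e ^ c ∧
      t * ((1 + (2 * P J + 2) * (2 * P₂ e ^ k)) * (2 * P₂ e ^ k)) ≤ P e ^ c := by
    intro e he
    have w1 := r.w1 e
    have m0 := t0.trans ht
    have p3 := r.big e
    obtain ⟨h1, h2⟩ := poly1 p3 w1 m0 (by linarith [m_le hL he])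
    refine ⟨le_trans ?_ (h1.trans (r.fin e)), le_trans ?_ (h2.trans (r.fin e))⟩
    · exact le_add_of_nonneg_of_le (by linarith) (by gcongr)
    · exact le_add_of_nonneg_of_le (by linarith) (mul_le_mul ht
        (le_mul_of_one_le_left (by positivity) (by linarith)) (by positivity) m0)
  have a2 : 2 * P₂ (J + 1) ^ k ≤ P (J + 1) ^ c := by
    linarith [(poly1 (r.big (J + 1)) (r.w1 (J + 1)) zero_le_one
      (one_le_pow₀ (by linarith [r.big (J + 1)]))).1, r.fin (J + 1), r.big (J + 1)]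
  have a3 : T'.yy N J ≤ T.yy N J + (T.dm J - T'.dm J) * P (J + 1) ^ c :=
    h.yy.trans (by have := sub_nonneg.2 h.dm; gcongr)
  have a4 : ∀ e, 0 ≤ P e ^ c := fun e => pow_nonneg (by linarith [r.big e]) _
  refine ⟨sub_mono h.sub ?_ (a1 0 (Nat.zero_le J)).1, st_mono h.ok h.zok h.st
    (mul_le_mul_of_nonneg_right (kap r hL ht) hκ) (mul_le_mul_of_nonneg_left
      (Real.exp_le_exp.2 (neg_le_neg (a1 1 h1).1)) hσ), fun e => ?_, h.dm, a3⟩
  · nlinarith [r.rad, m_le hL (Nat.zero_le J), r.w1 0]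
  · have d0 := dm_nonneg T e
    rcases lt_trichotomy e J with he | rfl | he
    · exact ⟨by linarith [(h.low e he).1, (a1 _ he).1],
        (h.low e he).2.trans (by nlinarith [(a1 _ he).2])⟩
    · exact ⟨by linarith [h.dm, a4 (e + 1)], a3.trans (by nlinarith [a4 (e + 1), dm_nonneg T' e])⟩
    · rw [up_dm h.up he, up_yy h.up N he]
      exact ⟨by linarith [a4 (e + 1)], by nlinarith [a4 (e + 1)]⟩

theorem rg_succ (hi : SubId) (hc : SubComp) (h1 : TEST s) (h2 : EVENT s) {j cR : ℕ}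
    (h3 : Rg s j cR) : ∃ c, Rg s (j + 1) c := by
  obtain ⟨cT, h1⟩ := h1
  obtain ⟨cE, h2⟩ := h2
  obtain ⟨c, c1, hr⟩ := exists_room s (cT + cE + cR + 1)
  set k := cT + cE + cR + 1 with hk
  refine ⟨c + 9, fun N P T C W S _ _ _ cl m Z H B κ σ hL hT hC hZ hm hs a1 a2 a3 a4 a5 => ?_⟩
  obtain ⟨P₁, P₂, r0⟩ := hr N P (lad_mono hL (by push_cast; linarith))
  have r : Room s N k (c + 9) P P₁ P₂ := { r0 with
    fin := fun e => (r0.fin e).trans (pow_le_pow_right₀ (by linarith [r0.big e]) (by omega)) }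
  replace hL : Lad s N 9 P := lad_mono hL (by push_cast; linarith [Nat.cast_nonneg (α := ℝ) c])
  have k0 := (Real.exp_pos _).le.trans a3
  have s0 := (Real.exp_pos _).le.trans a4
  have q1 : ∀ e, 1 ≤ P₁ e := fun e => by linarith [r.le1 e, r.big e]
  have q2 : ∀ e, 1 ≤ P₂ e := fun e => (q1 e).trans (r.le2 e)
  have pw : ∀ e {n}, n ≤ k → P₂ e ^ n ≤ P₂ e ^ k := fun e n hn => pow_le_pow_right₀ (q2 e) hn
  have pw2 : ∀ e {n}, n ≤ k → P₂ e ^ n ≤ 2 * P₂ e ^ k := fun e n hn => by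
    linarith [pw e hn, r.w1 e]
  have lk : ∀ {n : ℕ} {P'}, n ≤ k → Lad s N k P' → Lad s N n P' := fun hn h =>
    lad_mono h (by exact_mod_cast hn)
  have b0 : P (j + 1 + 1) ≤ P₂ (j + 1) := by linarith [hL.anti (j + 1), r.le1 (j + 1), r.le2 (j + 1)]
  have b1 := a1.trans b0
  have b2 := a2.trans (Real.exp_le_exp.2 b0)
  have x0 : 0 ≤ 1 / P₂ 0 := by have := q2 0; positivity
  have Q0 : ∀ e, 0 ≤ 2 * P₂ e ^ k := fun e => by linarith [r.w1 e]
  have tA : (P (j + 1) + P₁ (j + 1 + 1) + P₁ (j + 1)) ^ cT ≤ P₁ (j + 1) ^ (2 * k) := by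
    have := r.l1.anti (j + 1); have := r.le1 (j + 1); have := r.big (j + 1); have := q1 (j + 1 + 1)
    rw [pow_mul]
    exact (pow_le_pow_left₀ (by linarith) (by nlinarith) _).trans
      (pow_le_pow_right₀ (one_le_pow₀ (q1 _)) (by omega))
  have tB : P₁ (j + 1) ^ (2 * k) ≤ P₂ (j + 1) :=
    r.two _ ▸ pow_le_pow_right₀ (q1 _) (by omega)
  by_contra hno
  have key : ∀ i : ℕ, (i : ℝ) ≤ T.dm (j + 1) + 1 → ∃ (T' : Tow) (Z' : Sys T' W S)
      (Ψ : Fam ℤ T.ι T'.ι W S), Lp s N (j + 1) cl m Z H B κ σ k P P₂ (2 * i) Z' Ψ ∧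
      T'.dm (j + 1) + i ≤ T.dm (j + 1) := by
    intro i
    induction i with
    | zero =>
      obtain ⟨Ψ, h4, h5⟩ := hi s N T C W S cl m Z (Real.exp (P₂ (s + 1))) hT hZ
      exact fun _ => ⟨T, Z, Ψ, ⟨hT, hZ, up_refl _ _, by simpa using h4, by simpa [h5] using a5,
        by simp, le_rfl, by simp⟩, by simp⟩
    | succ i ih =>
      intro hi1
      push_cast at hi1
      obtain ⟨T1, Z1, Ψ1, l1, d1⟩ := ih (by linarith)
      have t2 : ((2 * i + 1 : ℕ) : ℝ) ≤ 2 * P (j + 1) + 2 := by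
        push_cast; linarith [(hC (j + 1)).1]
      have t1 : ((2 * i : ℕ) : ℝ) ≤ 2 * P (j + 1) + 2 := le_trans (by push_cast; linarith) t2
      obtain ⟨T2, Z2, Ψ2, o2, z2, u2, s2, st2, g2, -, -, f2, -⟩ := h3 N P₂ T1 C W S cl m Z1 _ B _ _
        (lk (by omega) r.l2) l1.ok (cx_mono (l1.cx r hL hC hs t1) r.le2) l1.zok (by omega)
        (by omega) b1 b2 (kap2 r hL t1 a3) (sig r hL t1 a4) l1.st
      obtain ⟨Ψ3, l2⟩ := l1.step hc hT k0 x0 Q0 t1 (fun _ => le_rfl) o2 z2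
        (up_mono l1.ok o2 u2 (by omega)) (sub_mono s2 le_rfl (pw2 0 (by omega)))
        (st_mono o2 z2 st2 le_rfl (mul_le_mul_of_nonneg_left
          (Real.exp_le_exp.2 (neg_le_neg (pw2 1 (by omega)))) (by positivity)))
        (fun e _ => grow_mono g2 (fun e => pw2 e (by omega)) e) (up_dm u2 le_rfl).le
        (by rw [up_dm u2 le_rfl, up_yy u2 N le_rfl]; simp)
      have c2 := Lp.cx r hL hC hs l2 t2
      have f3 := lfd_mono o2 f2 le_rfl ((tA.trans tB).trans (r.l2.anti j)) (tA.trans tB)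
      rcases h1 N P₁ T2 (j + 1) (P (j + 1)) (P₁ (j + 1 + 1)) (lk (by omega) r.l1) o2 c2 (by omega)
        hs (lad_le r.l1 (by omega)) (by linarith [r.big (j + 1)])
        (((Real.log_le_log (by linarith [r.big (j + 1)]) (lad_le hL (Nat.zero_le _))).trans
          hL.lg).trans (by linarith [lad_le hL (show j + 1 + 1 ≤ s + 1 by omega), r.le1 (j + 1 + 1)]))
        f3 with f4 | f4
      · obtain ⟨g3, g4, g5, g6, g7⟩ := Lp.fin r hL l2 t2 (by omega) k0 s0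
        have : P (j + 1) ≤ P₂ (j + 1) := by linarith [r.le1 (j + 1), r.le2 (j + 1)]
        exact absurd ⟨T2, Z2, Ψ3, o2, z2, l2.up, g3, g4, g5, g6, g7,
          lfd_mono o2 f4 le_rfl le_rfl (by linarith [r.le1 (j + 1 + 1)]),
          lfd_mono o2 f2 le_rfl (this.trans (r.l2.anti j)) this⟩ hno
      obtain ⟨T3, Z3, Ψ4, o3, z3, u3, s3, st3, g3, d3, y3⟩ := h2 N P₂ T2 C W S cl m (j + 1) Z2 _ B
        _ _ _ _ _ (lk (by omega) r.l2) o2 (cx_mono c2 r.le2) z2 (by omega) hm b1 b2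
        (kap2 r hL t2 a3) (sig r hL t2 a4) l2.st
        (Real.one_le_exp (pow_nonneg (by linarith [q1 (j + 1 + 1)]) _)) (by
          rw [Real.log_exp]
          exact le_trans (pow_le_pow_left₀ (by linarith [q1 (j + 1 + 1)])
            (by linarith [r.big (j + 1), q1 (j + 1)]) _) (tA.trans tB)) f4 fun e he => by
          refine ⟨(c2 e).1.trans (r.le2 e), ?_⟩
          have e1 : P₁ (j + 1) ^ (2 * k) ≤ P₁ e ^ (2 * k) :=
            pow_le_pow_left₀ (by linarith [q1 (j + 1)]) (lad_le r.l1 he.le) _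
          have e2 := mul_le_mul (c2 e).1 (tA.trans e1) (by
            have := r.big (j + 1); have := q1 (j + 1); have := q1 (j + 1 + 1); positivity)
            (by linarith [q1 e])
          have e3 : 1 ≤ P₁ e ^ (2 * k) := one_le_pow₀ (q1 e)
          have e4 : 2 ≤ P₁ e := by linarith [r.le1 e, r.big e]
          rw [r.two, pow_add]
          nlinarith [(c2 e).2, mul_le_mul e4 (le_refl (P₁ e * P₁ e ^ (2 * k))) (by positivity)
            (by linarith)]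
      obtain ⟨Ψ5, l3⟩ := Iv.step hc hT l2 k0 x0 Q0 t2 (fun _ => le_rfl) o3 z3 u3
        (sub_mono s3 le_rfl (pw2 0 (by omega)))
        (st_mono o3 z3 st3 le_rfl (mul_le_mul_of_nonneg_left
          (Real.exp_le_exp.2 (neg_le_neg (pw2 1 (by omega)))) (by positivity)))
        (fun e he => ⟨(g3 e he).1.trans (by linarith [pw2 (e + 1) (show cE ≤ k by omega)]),
          (g3 e he).2.trans (by
            have e1 := ((tA.trans tB).trans (lad_le r.l2 he)).trans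
              ((pow_one _).ge.trans (pw (e + 1) (show 1 ≤ k by omega)))
            nlinarith [pw (e + 1) (show cE ≤ k by omega), dm_nonneg T2 e, r.w1 (e + 1)])⟩)
        (by linarith) (y3.trans (by
          have e1 : P₁ (j + 1 + 1) ^ cT ≤ P₂ (j + 1 + 1) ^ k :=
            (pow_le_pow_left₀ (by linarith [q1 (j + 1 + 1)]) (r.le2 _) _).trans (pw _ (by omega))
          rw [Real.log_exp]
          nlinarith [r.w1 (j + 1 + 1)]))
      exact ⟨T3, Z3, Ψ5, l3, by push_cast; linarith [up_dm u2 le_rfl]⟩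
  obtain ⟨T', -, -, -, h4⟩ := key (_ + 1) (by push_cast; exact le_rfl)
  push_cast at h4
  linarith [dm_nonneg T' (j + 1), show T.dm (j + 1) = (_ : ℕ) from rfl]

theorem reg_of (hi : SubId) (hc : SubComp) (h1 : TEST s) (h2 : EVENT s) : REG s := by
  have h3 : ∀ j, ∃ c, Rg s j c := fun j => by
    induction j with
    | zero => exact ⟨1, rg_zero hi s⟩
    | succ j ih => exact rg_succ hi hc h1 h2 ih.choose_spec
  choose c hc using h3
  refine ⟨(Finset.range (s + 1)).sup c + 1, fun N P T C W S _ _ _ cl m j Z H B κ σ hL hT hC hZ hm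
    hs => (hc j).mono (le_add_right (Finset.le_sup (f := c) (Finset.mem_range.2 (by omega))))
      (by omega) N P T C W S cl m Z H B κ σ hL hT hC hZ hm hs⟩

end

end Vale.Agent.P057RG
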